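import Vale.Agent.P096.Three.PinUp.Site
import Vale.Agent.P096.Three.Pinned
import Vale.Agent.P096.Full.Reduce.Moves

/-!
P096, all algebras: membership in the stabilisation, its centre, and the orbit of its commutant.
-/

open scoped InnerProductSpace Matrix
open Filter Topology

namespace Vale.Agent.P096.Three.PinUp

open Cent (Idx AmbH siteOp siteBasis leftMat rightMat leftSite rightSite siteW ten put0 amb)

variable {H : Type} [NormedAddCommGroup H] [InnerProductSpace ℂ H] [CompleteSpace H]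

/-- The component at `i`. -/
noncomputable def ev (i : Idx) : AmbH H →L[ℂ] H := lp.evalCLM ℂ (fun _ : Idx => H) 2 i

@[simp] theorem ev_apply (i : Idx) (f : AmbH H) : ev i f = f i := rfl

theorem gen_star {M : VonNeumannAlgebra H} {g : AmbH H →L[ℂ] AmbH H}
    (hg : g ∈ ten '' (M.commutant : Set (H →L[ℂ] H)) ∪
      Set.range fun p : ℕ × Matrix (Fin 2) (Fin 2) ℂ => rightSite (siteW p.1) p.1 p.2) :
    star g ∈ ten '' (M.commutant : Set (H →L[ℂ] H)) ∪
      Set.range fun p : ℕ × Matrix (Fin 2) (Fin 2) ℂ => rightSite (siteW p.1) p.1 p.2 := by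
  rcases hg with ⟨y, hy, rfl⟩ | ⟨⟨n, a⟩, rfl⟩
  · exact Or.inl ⟨star y, star_mem (show y ∈ M.commutant from hy), (Cent.star_ten y).symm⟩
  · exact Or.inr ⟨(n, aᴴ), (Cent.star_rightSite _ _ _).symm⟩

theorem mem_amb {M : VonNeumannAlgebra H} {x : AmbH H →L[ℂ] AmbH H} :
    x ∈ amb M ↔ (∀ y ∈ M.commutant, Commute x (ten y)) ∧
      ∀ n a, Commute x (rightSite (siteW n) n a) := by
  show x ∈ StarSubalgebra.centralizer ℂ _ ↔ _
  rw [StarSubalgebra.mem_centralizer_iff]
  constructor
  · exact fun h => ⟨fun y hy => (h _ (Or.inl ⟨y, hy, rfl⟩)).1.symm,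
      fun n a => (h _ (Or.inr ⟨(n, a), rfl⟩)).1.symm⟩
  · rintro ⟨h1, h2⟩
    have key : ∀ g ∈ ten '' (M.commutant : Set (H →L[ℂ] H)) ∪
        Set.range (fun p : ℕ × Matrix (Fin 2) (Fin 2) ℂ => rightSite (siteW p.1) p.1 p.2),
        g * x = x * g := by
      rintro g (⟨y, hy, rfl⟩ | ⟨⟨n, a⟩, rfl⟩)
      · exact (h1 y hy).eq.symm
      · exact (h2 n a).eq.symm
    exact fun g hg => ⟨key g hg, key _ (gen_star hg)⟩

theorem ten_mem_amb {M : VonNeumannAlgebra H} {x : H →L[ℂ] H} (hx : x ∈ M) : ten x ∈ amb M :=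
  mem_amb.2 ⟨fun y hy => by
    rw [commute_iff_eq, Cent.ten_mul, Cent.ten_mul,
      VonNeumannAlgebra.mem_commutant_iff.1 hy x hx], fun _ _ => Cent.ten_siteOp x _ _⟩

theorem leftSite_mem (M : VonNeumannAlgebra H) (n : ℕ) (a : Matrix (Fin 2) (Fin 2) ℂ) :
    leftSite (siteW n) n a ∈ amb M :=
  mem_amb.2 ⟨fun y _ => (Cent.ten_siteOp y _ _).symm,
    fun m b => Cent.leftSite_rightSite siteW_sq n m a b⟩

theorem ten_mem_commutant {M : VonNeumannAlgebra H} {y : H →L[ℂ] H} (hy : y ∈ M.commutant) :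
    ten y ∈ (amb M).commutant :=
  VonNeumannAlgebra.mem_commutant_iff.2 fun _ hx => ((mem_amb.1 hx).1 y hy).eq

theorem rightSite_mem (M : VonNeumannAlgebra H) (n : ℕ) (a : Matrix (Fin 2) (Fin 2) ℂ) :
    rightSite (siteW n) n a ∈ (amb M).commutant :=
  VonNeumannAlgebra.mem_commutant_iff.2 fun _ hx => ((mem_amb.1 hx).2 n a).eq

theorem permLeft_mem (M : VonNeumannAlgebra H) {k : ℕ} (π : Equiv.Perm (Fin k)) :
    perm leftF π ∈ amb M :=
  mem_amb.2 ⟨fun y _ => (perm_commute (F := leftF) π fun n a => Cent.ten_siteOp y n _).symm,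
    fun n a => (perm_commute (F := leftF) π fun m b => by
      rw [at_left]; exact (Cent.leftSite_rightSite siteW_sq m n b a).symm).symm⟩

theorem permRight_mem (M : VonNeumannAlgebra H) {k : ℕ} (π : Equiv.Perm (Fin k)) :
    perm rightF π ∈ (amb M).commutant :=
  VonNeumannAlgebra.mem_commutant_iff.2 fun x hx =>
    (perm_commute (x := x) (F := rightF) π fun n a => by
      rw [at_right]; exact (mem_amb.1 hx).2 n a).eq

theorem put0_apply_zero (v : H) : put0 v 0 = v := by simp [Cent.put0_apply]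

theorem put0_apply_ne {i : Idx} (hi : i ≠ 0) (v : H) : put0 v i = 0 := by
  simp [Cent.put0_apply, hi]

theorem ten_put0 (x : H →L[ℂ] H) (v : H) : ten x (put0 v) = put0 (x v) := Cent.ten_single x 0 v

/-- A family of operators equal on the single vectors is equal. -/
theorem ext_single {S T : AmbH H →L[ℂ] AmbH H}
    (h : ∀ i v, S (lp.single 2 i v) = T (lp.single 2 i v)) : S = T := by
  refine ContinuousLinearMap.ext fun f => ?_
  exact ((lp.hasSum_single (by simp) f).map S S.continuous).unique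
    (((lp.hasSum_single (by simp) f).map T T.continuous).congr_fun fun i => h i (f i))

/-- The corner at the vacuum. -/
noncomputable def corner (z : AmbH H →L[ℂ] AmbH H) : H →L[ℂ] H := (ev 0).comp (z.comp put0)

theorem corner_comm {z : AmbH H →L[ℂ] AmbH H} {y : H →L[ℂ] H} (h : Commute z (ten y)) :
    corner z * y = y * corner z := by
  refine ContinuousLinearMap.ext fun v => ?_
  show z (put0 (y v)) 0 = y (z (put0 v) 0)
  rw [← ten_put0, ← mul_apply_eq_comp z, h.eq, mul_apply_eq_comp, Cent.ten_apply]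

theorem corner_mem {M : VonNeumannAlgebra H} {z : AmbH H →L[ℂ] AmbH H} (hz : z ∈ amb M) :
    corner z ∈ M :=
  Full.Reduce.mem_of_commute_all M fun y hy => by
    have hy' : y ∈ M.commutant := VonNeumannAlgebra.mem_commutant_iff.2 hy
    exact (corner_comm ((mem_amb.1 hz).1 y hy')).symm

theorem single_decomp {i : Idx} {n : ℕ} (A : Matrix (Fin 4) (Fin 4) ℂ)
    (hA : ∀ l, A l 0 = if l = i n then 1 else 0) (v : H) :
    siteOp n A (lp.single 2 (i.update n 0) v) = lp.single 2 i v := by
  have e1 : (i.update n 0) n = 0 := by simp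
  rw [Cent.siteOp_single, e1, Finset.sum_eq_single (i n)]
  · rw [hA, if_pos rfl, one_smul]
    congr 1
    refine Finsupp.ext fun p => ?_
    rcases eq_or_ne p n with rfl | hp <;> simp [*]
  · intro l _ hl
    rw [hA, if_neg hl, zero_smul]
  · intro h; exact absurd (Finset.mem_univ _) h

/-- An operator commuting with every site matrix acts on the space alone. -/
theorem eq_ten_corner {z : AmbH H →L[ℂ] AmbH H} (hz : ∀ n A, Commute z (siteOp n A)) :
    z = ten (corner z) := by
  have h0 : ∀ v, z (put0 v) = put0 (corner z v) := by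
    intro v
    refine lp.ext (funext fun i => ?_)
    rcases eq_or_ne i 0 with rfl | hi
    · rw [put0_apply_zero]; rfl
    rw [put0_apply_ne hi]
    obtain ⟨n, hn⟩ : ∃ n, i n ≠ 0 := by
      by_contra hcon
      exact hi (Finsupp.ext fun n => by simpa using not_exists.1 hcon n)
    have hfix : siteOp n (Matrix.single 0 0 1) (put0 v) = put0 v := by
      have := single_decomp (i := (0 : Idx)) (n := n) (Matrix.single 0 0 1)
        (fun l => by simp [Matrix.single_apply, eq_comm]) v
      rwa [show (0 : Idx).update n 0 = 0 by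
        refine Finsupp.ext fun p => ?_
        rcases eq_or_ne p n with rfl | hp <;> simp [*]] at this
    have e : z (put0 v) = siteOp n (Matrix.single 0 0 1) (z (put0 v)) := by
      conv_lhs => rw [← hfix]
      rw [← mul_apply_eq_comp z, (hz n _).eq, mul_apply_eq_comp]
    rw [e, Cent.siteOp_apply]
    simp [Ne.symm hn]
  refine ext_single fun i v => ?_
  induction hc : i.support.card using Nat.strong_induction_on generalizing i v with
  | _ c ih =>
    rcases eq_or_ne i 0 with rfl | hi
    · rw [← Cent.put0_apply, h0, ten_put0]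
    obtain ⟨n, hn⟩ := Finsupp.support_nonempty_iff.2 hi
    have hlt : (i.update n 0).support.card < c := by
      rw [Finsupp.support_update_zero, ← hc]
      exact Finset.card_erase_lt_of_mem hn
    set A : Matrix (Fin 4) (Fin 4) ℂ := Matrix.single (i n) 0 1
    have hA : ∀ l, A l 0 = if l = i n then 1 else 0 := fun l => by
      simp [A, Matrix.single_apply, eq_comm]
    rw [← single_decomp A hA v, ← mul_apply_eq_comp z, (hz n A).eq, mul_apply_eq_comp,
      ih _ hlt _ _ rfl, ← mul_apply_eq_comp, ← (Cent.ten_siteOp _ n A).eq, mul_apply_eq_comp]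

/-- What commutes with both factors of a site commutes with the site. -/
theorem commute_siteOp {z : AmbH H →L[ℂ] AmbH H} {n : ℕ}
    (hl : ∀ a, Commute z (leftSite (siteW n) n a)) (hr : ∀ a, Commute z (rightSite (siteW n) n a))
    (A : Matrix (Fin 4) (Fin 4) ℂ) : Commute z (siteOp n A) := by
  set B := siteBasis (siteW n)
  have hB : B * B = 1 := Cent.siteBasis_sq (siteW_sq n)
  have e : A = ∑ p, ∑ q, (B * A * B) p q • (B * Matrix.single p q (1 : ℂ) * B) := by
    have e0 : A = B * (B * A * B) * B := by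
      rw [show B * (B * A * B) * B = (B * B) * A * (B * B) by simp only [Matrix.mul_assoc], hB,
        Matrix.one_mul, Matrix.mul_one]
    conv_lhs => rw [e0, Matrix.matrix_eq_sum_single (B * A * B)]
    simp only [Matrix.mul_sum, Matrix.sum_mul]
    refine Finset.sum_congr rfl fun p _ => Finset.sum_congr rfl fun q _ => ?_
    rw [← Matrix.smul_mul, ← Matrix.mul_smul, Matrix.smul_single, smul_eq_mul, mul_one]
  have h1 : ∀ p q, Commute z (siteOp n (B * Matrix.single p q (1 : ℂ) * B)) := by
    intro p q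
    obtain ⟨⟨a, c⟩, rfl⟩ := pr.surjective p
    obtain ⟨⟨b, d⟩, rfl⟩ := pr.surjective q
    rw [← left_right_unit, ← Cent.conj_mul (siteW_sq n), ← Cent.siteOp_mul]
    exact (hl (E a b)).mul_right (hr (E c d))
  rw [e]
  have hsum : ∀ (s : Finset (Fin 4)) (f : Fin 4 → Matrix (Fin 4) (Fin 4) ℂ),
      (∀ p, Commute z (siteOp n (f p))) → Commute z (siteOp n (∑ p ∈ s, f p)) := by
    intro s f hf
    induction s using Finset.induction with
    | empty => rw [Finset.sum_empty, Cent.siteOp_zero]; exact Commute.zero_right z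
    | insert a s ha ih => rw [Finset.sum_insert ha, Cent.siteOp_add]; exact (hf a).add_right ih
  exact hsum _ _ fun p => hsum _ _ fun q => by
    rw [Cent.siteOp_smul]; exact (h1 p q).smul_right _

/-- The centre of the stabilisation. -/
theorem centre_amb (M : VonNeumannAlgebra H) (z : AmbH H →L[ℂ] AmbH H) :
    (z ∈ amb M ∧ z ∈ (amb M).commutant) ↔ ∃ z₀, (z₀ ∈ M ∧ z₀ ∈ M.commutant) ∧ z = ten z₀ := by
  constructor
  · rintro ⟨hz, hz'⟩
    have e := eq_ten_corner (z := z) fun n A => commute_siteOp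
      (fun a => (VonNeumannAlgebra.mem_commutant_iff.1 hz' _ (leftSite_mem M n a)).symm)
      (fun a => (mem_amb.1 hz).2 n a) A
    refine ⟨corner z, ⟨corner_mem hz, VonNeumannAlgebra.mem_commutant_iff.2 fun x hx =>
      (corner_comm (VonNeumannAlgebra.mem_commutant_iff.1 hz' _ (ten_mem_amb hx)).symm).symm⟩, e⟩
  · rintro ⟨z₀, ⟨h1, h2⟩, rfl⟩
    exact ⟨ten_mem_amb h1, ten_mem_commutant h2⟩

theorem column_exists (n : ℕ) (q : Fin 4) : ∃ a : Matrix (Fin 2) (Fin 2) ℂ,
    ∀ l, rightF.at_ n a l 0 = if l = q then 1 else 0 := by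
  set w := siteW n
  have hw0 : (w 0 : ℂ) ≠ 0 := Complex.ofReal_ne_zero.2 (Cent.famW_pos _ 0).ne'
  have hw1 : (w 1 : ℂ) ≠ 0 := Complex.ofReal_ne_zero.2 (Cent.famW_pos _ 1).ne'
  set u : Fin 4 → ℂ := fun p => siteBasis w p q with hu
  refine ⟨!![u 0 / w 0, u 2 / w 1; u 1 / w 0, u 3 / w 1], fun l => ?_⟩
  have e : ∀ p, (rightMat !![u 0 / w 0, u 2 / w 1; u 1 / w 0, u 3 / w 1] * siteBasis w) p 0 =
      u p := by
    intro p
    fin_cases p <;>
      simp [rightMat, siteBasis, Matrix.mul_apply, Fin.sum_univ_four, hw0, hw1]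
  rw [Factor.at_, Matrix.mul_assoc, Matrix.mul_apply]
  refine (Finset.sum_congr rfl fun p _ => congrArg (siteBasis w l p * ·) (e p)).trans ?_
  simp only [hu]
  rw [← Matrix.mul_apply, Cent.siteBasis_sq (siteW_sq n), Matrix.one_apply]

/-- The commutant of the stabilisation has a dense orbit at the vacuum over a separating vector. -/
theorem dense_commutant {M : VonNeumannAlgebra H} {ξ : H}
    (hs : ∀ x ∈ M, x ξ = 0 → x = 0) :
    Dense {v | ∃ y ∈ (amb M).commutant, y (put0 ξ) = v} := by
  obtain ⟨p, hpp, -, hpξ, hpA, -, hd⟩ :=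
    Full.Reduce.exists_support M.commutant.toStarSubalgebra ξ
  have hoc : (M.commutant.toStarSubalgebra : Set (H →L[ℂ] H)) =
      Set.centralizer (M : Set (H →L[ℂ] H)) := VonNeumannAlgebra.coe_commutant M
  rw [hoc] at hd hpA
  have hp1 : p = 1 := by
    have h := hs (1 - p) (sub_mem (one_mem M) (Full.Reduce.mem_of_commute_all M hpA))
      (by rw [sub_apply, one_apply_eq_self, hpξ, sub_self])
    exact (sub_eq_zero.1 h).symm
  have hd' := hd hp1
  set O : Set (AmbH H) := {v | ∃ y ∈ (amb M).commutant, y (put0 ξ) = v}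
  let W : Submodule ℂ (AmbH H) :=
    { carrier := O
      add_mem' := fun {u v} ⟨a, ha, hu⟩ ⟨b, hb, hv⟩ =>
        ⟨a + b, add_mem ha hb, by rw [add_apply, hu, hv]⟩
      zero_mem' := ⟨0, zero_mem _, by simp⟩
      smul_mem' := fun c {v} ⟨a, ha, hv⟩ =>
        ⟨c • a, SMulMemClass.smul_mem (s := (amb M).commutant.toStarSubalgebra) c ha,
          by rw [smul_apply, hv]⟩ }
  refine Cent.dense_of_single W fun i v => ?_
  rw [← SetLike.mem_coe, Submodule.topologicalClosure_coe]
  show lp.single 2 i v ∈ closure O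
  induction hc : i.support.card using Nat.strong_induction_on generalizing i v with
  | _ c ih =>
    rcases eq_or_ne i 0 with rfl | hi
    · refine map_mem_closure put0.continuous (hd' v) ?_
      rintro _ ⟨y, hy, rfl⟩
      exact ⟨ten y, ten_mem_commutant (VonNeumannAlgebra.mem_commutant_iff.2 hy), ten_put0 y ξ⟩
    obtain ⟨n, hn⟩ := Finsupp.support_nonempty_iff.2 hi
    have hlt : (i.update n 0).support.card < c := by
      rw [Finsupp.support_update_zero, ← hc]
      exact Finset.card_erase_lt_of_mem hn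
    obtain ⟨a, ha⟩ := column_exists n (i n)
    rw [← single_decomp (rightF.at_ n a) ha v, at_right]
    refine map_mem_closure (rightSite (siteW n) n a).continuous (ih _ hlt _ _ rfl) ?_
    rintro _ ⟨y, hy, rfl⟩
    exact ⟨rightSite (siteW n) n a * y, mul_mem (rightSite_mem M n a) hy, mul_apply_eq_comp ..⟩

end Vale.Agent.P096.Three.PinUp
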