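import Vale.Agent.P096.Full.Reduce.Avg

/-!
P096, all algebras: averages of conjugates over finite groups with mirrors in the commutant.
-/

open scoped InnerProductSpace
open Filter Topology

namespace Vale.Agent.P096.Three.PinUp

open Full.Reduce (Groups avg avg_shift card_ne norm_avg_le exists_mean IsMean norm_le_one
  eventually_uf uf)

variable {K : Type} [NormedAddCommGroup K] [InnerProductSpace ℂ K] [CompleteSpace K]

/-- With mirrors in the commutant, the averages of the conjugates of an element converge strongly,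
to an element of the algebra commuting with the groups whose vector is invariant. -/
theorem exists_limit {A : VonNeumannAlgebra K} {η : K} {Γ : Groups K}
    (hA : ∀ g ∈ Γ.carrier, g ∈ A)
    (hmir : ∀ g ∈ Γ.carrier, ∃ y ∈ A.commutant, y ∈ unitary (K →L[ℂ] K) ∧ y η = star g η)
    (hd : Dense {v | ∃ y ∈ A.commutant, y η = v}) {x : K →L[ℂ] K} (hx : x ∈ A) :
    ∃ L ∈ A, (∀ g ∈ Γ.carrier, g * L = L * g) ∧
      (∀ g ∈ Γ.carrier, ∀ y ∈ A.commutant, y η = star g η → g (y (L η)) = L η) ∧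
      ∀ v, Tendsto (fun m => avg Γ m (fun g => g * x * star g) v) atTop (𝓝 (L v)) := by
  set f : (K →L[ℂ] K) → (K →L[ℂ] K) := fun g => g * x * star g with hf
  set a : ℕ → (K →L[ℂ] K) := fun m => avg Γ m f with ha
  have hu : ∀ g ∈ Γ.carrier, star g * g = 1 ∧ g * star g = 1 := fun g hg =>
    Unitary.mem_iff.1 (Groups.unitary_carrier hg)
  have hfA : ∀ g ∈ Γ.carrier, f g ∈ A := fun g hg =>
    mul_mem (mul_mem (hA g hg) hx) (star_mem (hA g hg))
  have hfn : ∀ g ∈ Γ.carrier, ‖f g‖ ≤ ‖x‖ := fun g hg => by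
    have h1 := norm_le_one (Groups.unitary_carrier hg)
    exact (norm_mul_le _ _).trans ((mul_le_of_le_one_right (norm_nonneg _) (by rwa [norm_star])).trans
      ((norm_mul_le _ _).trans (mul_le_of_le_one_left (norm_nonneg _) h1)))
  have haA : ∀ m, a m ∈ A := fun m => SMulMemClass.smul_mem (s := A.toStarSubalgebra) _
    (sum_mem fun g hg => show f g ∈ A.toStarSubalgebra from hfA g ⟨m, hg⟩)
  have han : ∀ m, ‖a m‖ ≤ ‖x‖ := fun m => norm_avg_le fun g hg => hfn g ⟨m, hg⟩
  have hinv : ∀ m, ∀ k ∈ Γ.G m, k * a m = a m * k := by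
    intro m k hk
    have e : k * a m * star k = a m := by
      conv_rhs => simp only [ha]; rw [← avg_shift hk]
      simp only [ha, hf, avg, mul_smul_comm, smul_mul_assoc, Finset.mul_sum, Finset.sum_mul,
        star_mul, mul_assoc]
    conv_rhs => rw [← e, mul_assoc _ _ k, (hu k ⟨m, hk⟩).1, mul_one]
  have hinner : ∀ m n, m ≤ n → ⟪a n η, a m η⟫_ℂ = ⟪a n η, x η⟫_ℂ := by
    intro m n hmn
    have key : ∀ g ∈ Γ.G m, ⟪a n η, f g η⟫_ℂ = ⟪a n η, x η⟫_ℂ := by
      intro g hg
      have hgc : g ∈ Γ.carrier := ⟨m, hg⟩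
      obtain ⟨y, hy, hyu, hyη⟩ := hmir g hgc
      have hcomm := fun z hz => VonNeumannAlgebra.mem_commutant_iff.1 hy z hz
      have e1 : f g η = g (y (x η)) := by
        simp only [hf, mul_apply_eq_comp]
        rw [← hyη, ← mul_apply_eq_comp x, hcomm x hx, mul_apply_eq_comp]
      have e2 : star g (a n η) = y (a n η) := by
        have hgs := hinv n (star g) (Γ.mono m n hmn (Γ.star_mem m g hg))
        rw [← mul_apply_eq_comp, hgs, mul_apply_eq_comp, ← hyη, ← mul_apply_eq_comp (a n),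
          hcomm _ (haA n), mul_apply_eq_comp]
      rw [e1, ← ContinuousLinearMap.adjoint_inner_left, ← ContinuousLinearMap.star_eq_adjoint, e2,
        Full.Reduce.inner_unitary hyu]
    show ⟪a n η, avg Γ m f η⟫_ℂ = _
    rw [avg, smul_apply, sum_apply, inner_smul_right, inner_sum]
    rw [Finset.sum_congr rfl key, Finset.sum_const, nsmul_eq_mul, ← mul_assoc,
      inv_mul_cancel₀ (card_ne m), one_mul]
  have hsq : ∀ m n, m ≤ n → ‖a m η - a n η‖ ^ 2 = ‖a m η‖ ^ 2 - ‖a n η‖ ^ 2 := by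
    intro m n hmn
    rw [@norm_sub_sq ℂ, inner_re_symm, hinner m n hmn, ← hinner n n le_rfl,
      inner_self_eq_norm_sq]
    ring
  have hanti : Antitone fun m => ‖a m η‖ ^ 2 := fun m n h => by
    have := hsq m n h
    simp only
    nlinarith [sq_nonneg ‖a m η - a n η‖]
  have hcv := tendsto_atTop_ciInf hanti ⟨0, by rintro _ ⟨m, rfl⟩; exact sq_nonneg _⟩
  have hc : CauchySeq fun m => a m η := by
    refine Metric.cauchySeq_iff'.2 fun ε hε => ?_
    obtain ⟨N, hN⟩ := Metric.tendsto_atTop.1 hcv (ε ^ 2 / 2) (by positivity)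
    refine ⟨N, fun n hn => ?_⟩
    have h1 := abs_lt.1 (hN n hn)
    have h2 := abs_lt.1 (hN N le_rfl)
    rw [dist_eq_norm, norm_sub_rev]
    refine lt_of_pow_lt_pow_left₀ 2 hε.le ?_
    rw [hsq N n hn]
    linarith [h1.1, h2.2]
  obtain ⟨ζ, hζ⟩ := cauchySeq_tendsto_of_complete hc
  obtain ⟨L, hL⟩ := exists_mean hfn
  have hLA : L ∈ A := hL.mem A hfA
  have hLζ : L η = ζ := ext_inner_left ℂ fun w => by
    refine tendsto_nhds_unique (hL w η) ?_
    exact ((Filter.Tendsto.inner (𝕜 := ℂ) (tendsto_const_nhds (x := w)) hζ).mono_left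
      (Ultrafilter.of_le _))
  have hcommL : ∀ k ∈ Γ.carrier, k * L = L * k := fun k hk => by
    have e : k * L * star k = L := by
      refine (((hL.mul_left k).mul_right (star k)).congr fun g _ => ?_).unique (hL.shift hk)
      simp only [hf, star_mul, mul_assoc]
    conv_rhs => rw [← e, mul_assoc, (hu k hk).1, mul_one]
  refine ⟨L, hLA, hcommL, fun g hg y hy hyη => ?_, fun v => ?_⟩
  · rw [← mul_apply_eq_comp y, ← VonNeumannAlgebra.mem_commutant_iff.1 hy L hLA, mul_apply_eq_comp,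
      hyη, ← mul_apply_eq_comp g, hcommL g hg, mul_apply_eq_comp, ← mul_apply_eq_comp g,
      (hu g hg).2, one_apply_eq_self]
  · have hLn : ‖L‖ ≤ ‖x‖ := hL.norm_le (norm_nonneg _) hfn
    refine Metric.tendsto_atTop.2 fun ε hε => ?_
    obtain ⟨_, ⟨y, hy, rfl⟩, hdv⟩ :=
      Metric.mem_closure_iff.1 (hd v) (ε / (4 * (‖x‖ + 1))) (by positivity)
    rw [dist_eq_norm] at hdv
    have hy' : Tendsto (fun m => a m (y η)) atTop (𝓝 (L (y η))) := by
      have hc' := fun z hz => VonNeumannAlgebra.mem_commutant_iff.1 hy z hz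
      rw [← mul_apply_eq_comp L, hc' L hLA, mul_apply_eq_comp, hLζ]
      exact ((y.continuous.tendsto _).comp hζ).congr fun m => by
        simp only [Function.comp_apply]
        rw [← mul_apply_eq_comp (a m), hc' _ (haA m), mul_apply_eq_comp]
    obtain ⟨N, hN⟩ := Metric.tendsto_atTop.1 hy' (ε / 2) (half_pos hε)
    refine ⟨N, fun m hm => ?_⟩
    have hN' := hN m hm
    rw [dist_eq_norm] at hN' ⊢
    show ‖a m v - L v‖ < ε
    have e : a m v - L v = a m (v - y η) + (a m (y η) - L (y η)) - L (v - y η) := by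
      rw [map_sub, map_sub]; abel
    rw [e]
    refine lt_of_le_of_lt ((norm_sub_le _ _).trans (add_le_add (norm_add_le _ _) le_rfl)) ?_
    have h1 := (a m).le_of_opNorm_le (han m) (v - y η)
    have h2 := L.le_of_opNorm_le hLn (v - y η)
    have h3 : (‖x‖ + 1) * ‖v - y η‖ < ε / 4 := by
      rw [lt_div_iff₀ (by positivity)] at hdv
      nlinarith
    nlinarith [norm_nonneg (v - y η)]

end Vale.Agent.P096.Three.PinUp
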