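import Vale.Agent.P096.Three.Index

/-!
P096, all algebras: products of site matrices, and the unitaries permuting the sites of a family.
-/

open scoped InnerProductSpace Matrix

namespace Vale.Agent.P096.Three.PinUp

open Cent (Idx AmbH siteOp siteBasis leftMat rightMat leftSite rightSite siteW famW_sq ten)

variable {H : Type} [NormedAddCommGroup H] [InnerProductSpace ℂ H] [CompleteSpace H]

theorem siteW_sq (n : ℕ) : siteW n 0 ^ 2 + siteW n 1 ^ 2 = 1 := famW_sq _

/-- The product of one matrix at each of the first `k` sites. -/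
noncomputable def blk : ∀ k : ℕ, (Fin k → Matrix (Fin 4) (Fin 4) ℂ) → (AmbH H →L[ℂ] AmbH H)
  | 0, _ => 1
  | k + 1, A => blk k (fun m => A m.castSucc) * siteOp k (A (Fin.last k))

/-- The states `t` at the first `k` sites and those of `i` beyond. -/
noncomputable def ovr : ∀ k : ℕ, Idx → (Fin k → Fin 4) → Idx
  | 0, i, _ => i
  | k + 1, i, t => (ovr k i fun m => t m.castSucc).update k (t (Fin.last k))

theorem ovr_beyond : ∀ (k : ℕ) (i : Idx) (t : Fin k → Fin 4) (m : ℕ), k ≤ m → ovr k i t m = i m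
  | 0, _, _, _, _ => rfl
  | k + 1, i, t, m, h => by
    rw [ovr, Finsupp.update_apply, if_neg (by omega), ovr_beyond k i _ m (by omega)]

theorem ovr_apply : ∀ (k : ℕ) (i : Idx) (t : Fin k → Fin 4) (m : Fin k), ovr k i t m = t m
  | 0, _, _, m => m.elim0
  | k + 1, i, t, m => by
    rw [ovr, Finsupp.update_apply]
    refine Fin.lastCases ?_ (fun j => ?_) m
    · simp
    · rw [if_neg (by simp [j.is_lt.ne]), Fin.val_castSucc, ovr_apply k i _ j]

theorem blk_apply : ∀ (k : ℕ) (A : Fin k → Matrix (Fin 4) (Fin 4) ℂ) (f : AmbH H) (i : Idx),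
    blk k A f i = ∑ t : Fin k → Fin 4, (∏ m, A m (i m) (t m)) • f (ovr k i t)
  | 0, A, f, i => by simp [blk, ovr]
  | k + 1, A, f, i => by
    rw [blk, mul_apply_eq_comp, blk_apply k]
    simp only [Cent.siteOp_apply, Finset.smul_sum, smul_smul, ovr_beyond k i _ k le_rfl]
    rw [← (Fin.snocEquiv fun _ : Fin (k + 1) => Fin 4).sum_comp, Fintype.sum_prod_type,
      Finset.sum_comm]
    refine Finset.sum_congr rfl fun s _ => Finset.sum_congr rfl fun t _ => ?_
    simp [ovr, Fin.prod_univ_castSucc, Fin.snocEquiv]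

theorem blk_commute_of : ∀ (k : ℕ) (A : Fin k → Matrix (Fin 4) (Fin 4) ℂ)
    (x : AmbH H →L[ℂ] AmbH H), (∀ m : Fin k, Commute x (siteOp m (A m))) → Commute x (blk k A)
  | 0, _, x, _ => Commute.one_right x
  | k + 1, A, x, h => by
    refine Commute.mul_right (blk_commute_of k _ x fun m => ?_) ?_
    · simpa using h m.castSucc
    · simpa using h (Fin.last k)

theorem blk_mul : ∀ (k : ℕ) (A B : Fin k → Matrix (Fin 4) (Fin 4) ℂ),
    blk (H := H) k A * blk k B = blk k fun m => A m * B m
  | 0, _, _ => one_mul _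
  | k + 1, A, B => by
    have hc : Commute (siteOp (H := H) k (A (Fin.last k))) (blk k fun m => B m.castSucc) :=
      blk_commute_of k _ _ fun m => Cent.siteOp_comm m.is_lt.ne' _ _
    simp only [blk]
    rw [mul_assoc, ← mul_assoc (siteOp _ _), hc.eq, mul_assoc, ← mul_assoc, blk_mul k,
      Cent.siteOp_mul]

theorem star_blk : ∀ (k : ℕ) (A : Fin k → Matrix (Fin 4) (Fin 4) ℂ),
    star (blk (H := H) k A) = blk k fun m => (A m)ᴴ
  | 0, _ => star_one _
  | k + 1, A => by
    have hc : Commute (siteOp (H := H) k (A (Fin.last k))ᴴ) (blk k fun m => (A m.castSucc)ᴴ) :=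
      blk_commute_of k _ _ fun m => Cent.siteOp_comm m.is_lt.ne' _ _
    simp only [blk]
    rw [star_mul, star_blk k, Cent.star_siteOp, hc.eq]

theorem blk_zero {k : ℕ} {A : Fin k → Matrix (Fin 4) (Fin 4) ℂ} {m : Fin k} (h : A m = 0) :
    blk (H := H) k A = 0 := by
  refine ContinuousLinearMap.ext fun f => lp.ext (funext fun i => ?_)
  rw [blk_apply]
  refine Finset.sum_eq_zero fun t _ => ?_
  rw [Finset.prod_eq_zero (Finset.mem_univ m) (by rw [h]; rfl), zero_smul]

/-- The matrix unit. -/
noncomputable def E (a b : Fin 2) : Matrix (Fin 2) (Fin 2) ℂ := Matrix.single a b 1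

theorem E_mul (a b b' c : Fin 2) : E a b * E b' c = if b = b' then E a c else 0 := by
  simp only [E]
  split_ifs with h
  · subst h; rw [Matrix.single_mul_single_same, mul_one]
  · exact Matrix.single_mul_single_of_ne _ _ _ _ h _

theorem E_star (a b : Fin 2) : (E a b)ᴴ = E b a := by simp [E]

theorem E_sum : E 0 0 + E 1 1 = 1 := by
  ext i j
  fin_cases i <;> fin_cases j <;> simp [E]

/-- One of the two factors of a site. -/
structure Factor where
  /-- The embedding of the two by two matrices. -/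
  μ : Matrix (Fin 2) (Fin 2) ℂ → Matrix (Fin 4) (Fin 4) ℂ
  mul : ∀ a b, μ a * μ b = μ (a * b)
  add : ∀ a b, μ (a + b) = μ a + μ b
  one : μ 1 = 1
  star' : ∀ a, (μ a)ᴴ = μ aᴴ

theorem rightMat_one : rightMat 1 = 1 := by
  ext i j
  fin_cases i <;> fin_cases j <;> simp [rightMat]

theorem rightMat_add (a b : Matrix (Fin 2) (Fin 2) ℂ) :
    rightMat (a + b) = rightMat a + rightMat b := by
  ext i j
  fin_cases i <;> fin_cases j <;> simp [rightMat]

/-- The algebra factor. -/
def leftF : Factor := ⟨leftMat, Cent.leftMat_mul, Cent.leftMat_add, Cent.leftMat_one,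
  Cent.leftMat_star⟩

/-- The commutant factor. -/
def rightF : Factor := ⟨rightMat, Cent.rightMat_mul, rightMat_add, rightMat_one,
  Cent.rightMat_star⟩

theorem Factor.zero (F : Factor) : F.μ 0 = 0 := by
  have h := F.add 0 0
  rw [add_zero] at h
  simpa using h

/-- A matrix of a factor of the site `n`, in the coordinates of the site. -/
noncomputable def Factor.at_ (F : Factor) (n : ℕ) (a : Matrix (Fin 2) (Fin 2) ℂ) :
    Matrix (Fin 4) (Fin 4) ℂ :=
  siteBasis (siteW n) * F.μ a * siteBasis (siteW n)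

theorem Factor.at_mul (F : Factor) (n : ℕ) (a b : Matrix (Fin 2) (Fin 2) ℂ) :
    F.at_ n a * F.at_ n b = F.at_ n (a * b) := by
  rw [Factor.at_, Factor.at_, Cent.conj_mul (siteW_sq n), F.mul, Factor.at_]

theorem Factor.at_star (F : Factor) (n : ℕ) (a : Matrix (Fin 2) (Fin 2) ℂ) :
    (F.at_ n a)ᴴ = F.at_ n aᴴ := by
  rw [Factor.at_, Matrix.conjTranspose_mul, Matrix.conjTranspose_mul, Cent.siteBasis_star,
    F.star', Factor.at_, Matrix.mul_assoc]

theorem at_left (n : ℕ) (a : Matrix (Fin 2) (Fin 2) ℂ) :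
    siteOp (H := H) n (leftF.at_ n a) = leftSite (siteW n) n a := rfl

theorem at_right (n : ℕ) (a : Matrix (Fin 2) (Fin 2) ℂ) :
    siteOp (H := H) n (rightF.at_ n a) = rightSite (siteW n) n a := rfl

/-- A matrix unit of the first `k` sites in one factor. -/
noncomputable def unit (F : Factor) (k : ℕ) (c d : Fin k → Fin 2) : AmbH H →L[ℂ] AmbH H :=
  blk k fun m => F.at_ m (E (c m) (d m))

theorem unit_mul (F : Factor) (k : ℕ) (c d d' e : Fin k → Fin 2) :
    unit (H := H) F k c d * unit F k d' e = if d = d' then unit F k c e else 0 := by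
  rw [unit, unit, blk_mul]
  simp only [Factor.at_mul, E_mul]
  split_ifs with h
  · subst h
    simp [unit]
  · obtain ⟨m, hm⟩ := Function.ne_iff.1 h
    refine blk_zero (m := m) ?_
    rw [if_neg hm, Factor.at_, F.zero, Matrix.mul_zero, Matrix.zero_mul]

theorem star_unit (F : Factor) (k : ℕ) (c d : Fin k → Fin 2) :
    star (unit (H := H) F k c d) = unit F k d c := by
  rw [unit, star_blk]
  simp only [Factor.at_star, E_star]
  rfl

theorem sum_unit : ∀ (F : Factor) (k : ℕ),
    ∑ c : Fin k → Fin 2, unit (H := H) F k c c = 1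
  | F, 0 => by simp [unit, blk]
  | F, k + 1 => by
    have e : siteOp (H := H) k (F.at_ k (E 0 0)) + siteOp k (F.at_ k (E 1 1)) = 1 := by
      rw [← Cent.siteOp_add, Factor.at_, Factor.at_, ← Matrix.add_mul, ← Matrix.mul_add,
        ← F.add, E_sum, F.one, Matrix.mul_one, Cent.siteBasis_sq (siteW_sq k), Cent.siteOp_one]
    rw [← (Fin.snocEquiv fun _ : Fin (k + 1) => Fin 2).sum_comp, Fintype.sum_prod_type,
      Fin.sum_univ_two, ← Finset.sum_add_distrib]
    simp only [unit, blk, Fin.snocEquiv, Equiv.coe_fn_mk, Fin.snoc_last, Fin.snoc_castSucc,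
      Fin.val_castSucc, Fin.val_last, ← mul_add, e, mul_one]
    exact sum_unit F k

/-- The unitary moving the sites of one factor by `π`. -/
noncomputable def perm (F : Factor) {k : ℕ} (π : Equiv.Perm (Fin k)) : AmbH H →L[ℂ] AmbH H :=
  ∑ c : Fin k → Fin 2, unit F k (fun m => c (π.symm m)) c

theorem perm_mul (F : Factor) {k : ℕ} (π ρ : Equiv.Perm (Fin k)) :
    perm (H := H) F π * perm F ρ = perm F (π * ρ) := by
  rw [perm, perm, Finset.mul_sum]
  refine Finset.sum_congr rfl fun d _ => ?_
  rw [Finset.sum_mul, Finset.sum_eq_single fun m => d (ρ.symm m)]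
  · rw [unit_mul, if_pos rfl]
    rfl
  · intro c _ hc
    rw [unit_mul, if_neg hc]
  · intro h; exact absurd (Finset.mem_univ _) h

theorem perm_one (F : Factor) (k : ℕ) : perm (H := H) F (1 : Equiv.Perm (Fin k)) = 1 :=
  sum_unit F k

theorem star_perm (F : Factor) {k : ℕ} (π : Equiv.Perm (Fin k)) :
    star (perm (H := H) F π) = perm F π⁻¹ := by
  rw [perm, star_sum, perm, ← (π.arrowCongr (Equiv.refl (Fin 2))).sum_comp (fun c =>
    unit F k (fun m => c (π⁻¹.symm m)) c)]
  refine Finset.sum_congr rfl fun c _ => ?_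
  rw [star_unit]
  congr 1
  funext m
  show c m = c (π.symm (π m))
  rw [Equiv.symm_apply_apply]

theorem perm_unitary (F : Factor) {k : ℕ} (π : Equiv.Perm (Fin k)) :
    perm (H := H) F π ∈ unitary (AmbH H →L[ℂ] AmbH H) := by
  rw [Unitary.mem_iff, star_perm, perm_mul, perm_mul, inv_mul_cancel, mul_inv_cancel, perm_one]
  exact ⟨rfl, rfl⟩

theorem perm_commute {F : Factor} {k : ℕ} (π : Equiv.Perm (Fin k)) {x : AmbH H →L[ℂ] AmbH H}
    (h : ∀ n a, Commute x (siteOp n (F.at_ n a))) : Commute x (perm F π) :=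
  Commute.sum_right _ _ _ fun _ _ => blk_commute_of k _ x fun m => h m _

/-- The permutation fixing the new site. -/
noncomputable def extend {k : ℕ} (π : Equiv.Perm (Fin k)) : Equiv.Perm (Fin (k + 1)) :=
  finSuccEquivLast.symm.permCongr π.optionCongr

theorem extend_castSucc {k : ℕ} (π : Equiv.Perm (Fin k)) (m : Fin k) :
    extend π m.castSucc = (π m).castSucc := by
  simp [extend, Equiv.permCongr_apply]

theorem extend_last {k : ℕ} (π : Equiv.Perm (Fin k)) : extend π (Fin.last k) = Fin.last k := by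
  simp [extend, Equiv.permCongr_apply]

theorem perm_extend (F : Factor) {k : ℕ} (π : Equiv.Perm (Fin k)) :
    perm (H := H) F (extend π) = perm F π := by
  have e : siteOp (H := H) k (F.at_ k (E 0 0)) + siteOp k (F.at_ k (E 1 1)) = 1 := by
    rw [← Cent.siteOp_add, Factor.at_, Factor.at_, ← Matrix.add_mul, ← Matrix.mul_add,
      ← F.add, E_sum, F.one, Matrix.mul_one, Cent.siteBasis_sq (siteW_sq k), Cent.siteOp_one]
  have h1 : ∀ m, (extend π).symm (Fin.castSucc m) = (π.symm m).castSucc := fun m => by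
    rw [Equiv.symm_apply_eq, extend_castSucc, Equiv.apply_symm_apply]
  have h2 : (extend π).symm (Fin.last k) = Fin.last k := by
    rw [Equiv.symm_apply_eq, extend_last]
  rw [perm, ← (Fin.snocEquiv fun _ : Fin (k + 1) => Fin 2).sum_comp, Fintype.sum_prod_type,
    Fin.sum_univ_two, ← Finset.sum_add_distrib, perm]
  refine Finset.sum_congr rfl fun c _ => ?_
  simp only [unit, blk, Fin.snocEquiv, Equiv.coe_fn_mk, Fin.snoc_last, Fin.snoc_castSucc,
    Fin.val_castSucc, Fin.val_last, h1, h2, ← mul_add, e, mul_one]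

/-- A state of a site from its two factors. -/
def pr : Fin 2 × Fin 2 ≃ Fin 4 := finProdFinEquiv

theorem leftMat_apply (a : Matrix (Fin 2) (Fin 2) ℂ) (p q : Fin 2 × Fin 2) :
    leftMat a (pr p) (pr q) = if p.2 = q.2 then a p.1 q.1 else 0 := by
  obtain ⟨p1, p2⟩ := p
  obtain ⟨q1, q2⟩ := q
  fin_cases p1 <;> fin_cases p2 <;> fin_cases q1 <;> fin_cases q2 <;>
    simp [leftMat, pr, finProdFinEquiv]

theorem rightMat_apply (a : Matrix (Fin 2) (Fin 2) ℂ) (p q : Fin 2 × Fin 2) :
    rightMat a (pr p) (pr q) = if p.1 = q.1 then a p.2 q.2 else 0 := by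
  obtain ⟨p1, p2⟩ := p
  obtain ⟨q1, q2⟩ := q
  fin_cases p1 <;> fin_cases p2 <;> fin_cases q1 <;> fin_cases q2 <;>
    simp [rightMat, pr, finProdFinEquiv]

/-- A product of units of the two factors is a unit of the site. -/
theorem left_right_unit (a b c d : Fin 2) :
    leftMat (E a b) * rightMat (E c d) =
      Matrix.single (pr (a, c)) (pr (b, d)) 1 := by
  ext s t
  obtain ⟨p, rfl⟩ := pr.surjective s
  obtain ⟨q, rfl⟩ := pr.surjective t
  rw [Matrix.mul_apply, ← pr.sum_comp, Finset.sum_eq_single (q.1, p.2)]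
  · simp only [leftMat_apply, rightMat_apply, E, Matrix.single_apply, Equiv.apply_eq_iff_eq,
      Prod.ext_iff, if_true]
    split_ifs <;> simp_all
  · intro r _ hr
    rw [leftMat_apply, rightMat_apply]
    split_ifs with h1 h2
    · exact absurd (show r = (q.1, p.2) from Prod.ext h2 h1.symm) hr
    all_goals simp
  · intro h; exact absurd (Finset.mem_univ _) h

theorem conj_single (B : Matrix (Fin 4) (Fin 4) ℂ) (p q s t : Fin 4) :
    (B * Matrix.single p q (1 : ℂ) * B) s t = B s p * B q t := by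
  simp [Matrix.mul_apply, Matrix.single_apply, ite_and]

/-- The two permutations together relabel the sites. -/
theorem perm_left_right {k : ℕ} (π : Equiv.Perm (Fin k))
    (hπ : ∀ m : Fin k, siteW (π m) = siteW m) (f : AmbH H) (i : Idx) :
    (perm (H := H) leftF π * perm (H := H) rightF π) f i = f (ovr k i fun m => i (π m)) := by
  have hB : ∀ (n : ℕ) (s t : Fin 4),
      ∑ p, siteBasis (siteW n) s p * siteBasis (siteW n) p t = if s = t then 1 else 0 := by
    intro n s t
    rw [← Matrix.mul_apply, Cent.siteBasis_sq (siteW_sq n), Matrix.one_apply]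
  rw [perm, perm, Finset.sum_mul]
  simp only [Finset.mul_sum, unit, blk_mul, sum_apply, lp.coeFn_sum, Finset.sum_apply, blk_apply,
    Factor.at_, leftF, rightF, Cent.conj_mul (siteW_sq _), left_right_unit]
  rw [← Fintype.sum_prod_type (f := fun cd : (Fin k → Fin 2) × (Fin k → Fin 2) =>
      ∑ t : Fin k → Fin 4, (∏ m : Fin k, (siteBasis (siteW m) *
        Matrix.single (pr (cd.1 (π.symm m), cd.2 (π.symm m)))
          (pr (cd.1 m, cd.2 m)) (1 : ℂ) * siteBasis (siteW m)) (i m) (t m)) •
        f (ovr k i t)),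
    ← ((Equiv.arrowProdEquivProdArrow (Fin k) (fun _ => Fin 2) (fun _ => Fin 2)).symm.trans
      ((Equiv.refl (Fin k)).arrowCongr pr)).symm.sum_comp]
  simp only [Equiv.symm_trans_apply, Equiv.arrowCongr_symm, Equiv.refl_symm, Equiv.symm_symm,
    Equiv.arrowCongr_apply, Equiv.arrowProdEquivProdArrow, Equiv.coe_fn_mk, Equiv.coe_refl,
    Function.comp_def, id, Prod.mk.eta, Equiv.apply_symm_apply]
  have hval : ∀ t : Fin k → Fin 4,
      (∑ P : Fin k → Fin 4, ∏ m : Fin k, (siteBasis (siteW m) *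
        Matrix.single (P (π.symm m)) (P m) (1 : ℂ) * siteBasis (siteW m)) (i m) (t m)) =
      ∏ m : Fin k, if i (π m) = t m then 1 else 0 := by
    intro t
    simp only [conj_single]
    rw [← Finset.prod_congr rfl fun (m : Fin k) _ => hB m (i (π m)) (t m), Fintype.prod_sum]
    refine Finset.sum_congr rfl fun P _ => ?_
    rw [Finset.prod_mul_distrib, Finset.prod_mul_distrib,
      ← Equiv.prod_comp π fun m : Fin k => siteBasis (siteW m) (i m) (P (π.symm m))]
    refine congrArg (· * _) (Finset.prod_congr rfl fun m _ => ?_)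
    rw [hπ, Equiv.symm_apply_apply]
  rw [Finset.sum_comm, Finset.sum_eq_single fun m => i (π m)]
  · rw [← Finset.sum_smul, hval]
    simp
  · intro t _ ht
    rw [← Finset.sum_smul, hval]
    obtain ⟨m, hm⟩ := Function.ne_iff.1 ht
    rw [Finset.prod_eq_zero (Finset.mem_univ m) (if_neg fun e => hm e.symm), zero_smul]
  · intro h; exact absurd (Finset.mem_univ _) h

end Vale.Agent.P096.Three.PinUp
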